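import Vale.Agent.Lib.P126.RFull

/-!
# P126: the duality conjecture for metric entropy is equivalent to its special case `L = cube`

If the two inequalities of the conjecture hold with constants `(a, b)` for all pairs `(M, [-1,1]^N)`, `M` an
origin-symmetric convex body in `ℝ^N`, `N` arbitrary, then they hold with constants `(16 a, b)` for all pairs of
origin-symmetric convex bodies in `ℝ^n`, `n` arbitrary.
-/

open scoped Pointwise

namespace Vale.Agent.Results.P126.ACubeReduction

open _root_.P126 _root_.P248

theorem result :
    (∀ N : ℕ, SymBody (cube N)) ∧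
    ∀ (a b : ℝ), 1 ≤ a → 0 < b →
      (∀ (N : ℕ) (M : Set (Fin N → ℝ)), SymBody M → Dual a b M (cube N)) →
      ∀ (n : ℕ) (K L : Set (Fin n → ℝ)), SymBody K → SymBody L → Dual (16 * a) b K L :=
  ⟨symBody_cube, fun a b ha hb H _ K L hK hL => dual_full a b ha hb H K L hK hL⟩

end Vale.Agent.Results.P126.ACubeReduction
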