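import Vale.Agent.Lib.P126.ProdMain
import Vale.Agent.Lib.P126.CovReix

/-!
# P126: the duality inequalities for covering numbers are inherited by Cartesian products

If the two inequalities of the duality conjecture hold with constants `(a, b)` for the pairs `(K₁, L₁)`, `(K₁, 2 L₁)` in
`ℝ^n` and `(K₂, L₂)`, `(K₂, 2 L₂)` in `ℝ^m`, then they hold with constants `(4 a, b)` for the pair
`(K₁ × K₂, L₁ × L₂)` in `ℝ^(n+m)`.
-/

open scoped Pointwise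

namespace Vale.Agent.Results.P126.ProductClosure

open _root_.P126 _root_.P248

theorem result :
    ∀ (n m : ℕ) (a b : ℝ), 0 < a → 0 < b →
      ∀ (K₁ L₁ : Set (Fin n → ℝ)) (K₂ L₂ : Set (Fin m → ℝ)),
        SymBody K₁ → SymBody L₁ → SymBody K₂ → SymBody L₂ →
        Dual a b K₁ L₁ → Dual a b K₁ ((2 : ℝ) • L₁) →
        Dual a b K₂ L₂ → Dual a b K₂ ((2 : ℝ) • L₂) →
        SymBody (prodF K₁ K₂) ∧ SymBody (prodF L₁ L₂) ∧
          Dual (4 * a) b (prodF K₁ K₂) (prodF L₁ L₂) := by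
  intro n m a b ha hb K₁ L₁ K₂ L₂ hK₁ hL₁ hK₂ hL₂ h₁ h₁' h₂ h₂'
  refine ⟨?_, ?_, ?_⟩
  · rw [prodF_eq]
    exact symBody_reix _ _ (symBody_prodG K₁ K₂ hK₁ hK₂)
  · rw [prodF_eq]
    exact symBody_reix _ _ (symBody_prodG L₁ L₂ hL₁ hL₂)
  · rw [prodF_eq, prodF_eq, dual_reix]
    exact dual_prod a b ha hb K₁ L₁ K₂ L₂ hK₁ hL₁ hK₂ hL₂ h₁ h₂ h₁' h₂'

end Vale.Agent.Results.P126.ProductClosure
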